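import Mathlib

/-!
# P101: the fourteen-epsilon gap for the free group on two generators
-/

namespace Vale.Agent.P101.FreeGap

open FreeGroup
open scoped InnerProductSpace

/-- The free group on two generators. -/
abbrev G := FreeGroup (Fin 2)

theorem startsWith_mul_right {g : G} {w x : Fin 2 × Bool} (hg : g ∈ startsWith w)
    (hwx : w.1 ≠ x.1) : g * FreeGroup.mk [x] ∈ startsWith w := by
  simp only [startsWith, Set.mem_ofPred_eq] at hg ⊢
  have hred : IsReduced g.toWord := isReduced_toWord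
  have hmk : (g * FreeGroup.mk [x]).toWord = reduce (g.toWord ++ [x]) := by
    rw [toWord_mul, toWord_mk, reduce_singleton]
  rw [hmk]
  rcases List.eq_nil_or_concat g.toWord with h | ⟨L, z, h⟩
  · rw [h] at hg; simp at hg
  rw [List.concat_eq_append] at h
  rw [h] at hg hred ⊢
  by_cases hz : z = (x.1, !x.2)
  · have hstep : Red.Step ((L ++ [z]) ++ [x]) L := by
      subst hz
      simpa using (Red.Step.not_rev (L₁ := L) (L₂ := []) (x := x.1) (b := x.2))
    rw [reduce.Step.eq hstep, IsReduced.reduce_eq ((List.isChain_append.1 hred).1 : IsReduced L)]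
    rcases L with _ | ⟨y, L⟩
    · simp at hg; subst hg; exact absurd (by rw [hz]) hwx
    · simpa using hg
  · have : IsReduced ((L ++ [z]) ++ [x]) := by
      refine List.IsChain.append hred (List.isChain_singleton x) ?_
      intro p hp q hq hpq
      simp at hp hq
      subst hp hq
      obtain ⟨p1, p2⟩ := z
      obtain ⟨q1, q2⟩ := x
      simp only at hpq hz ⊢
      subst hpq
      cases p2 <;> cases q2 <;> simp_all
    rw [this.reduce_eq]
    cases L <;> simpa using hg

/-- Conjugation as a permutation. -/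
def cj (s : G) : G ≃ G := (MulAut.conj s).toEquiv

@[simp] theorem cj_apply (s g : G) : cj s g = s * g * s⁻¹ := rfl

/-- Words beginning with the first generator or its inverse. -/
def S : Set G := {g | g ∈ startsWith (0, true) ∨ g ∈ startsWith (0, false)}

theorem mk_not (w : Fin 2 × Bool) : (FreeGroup.mk [w])⁻¹ = FreeGroup.mk [(w.1, !w.2)] := by
  simp [inv_mk, invRev]

theorem cover (g : G) (hg : g ≠ 1) : g ∈ S ∨ (cj (FreeGroup.of 0)).symm g ∈ S := by
  by_cases h : g ∈ S
  · exact Or.inl h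
  refine Or.inr (Or.inr ?_)
  obtain ⟨⟨i, c⟩, hic⟩ : ∃ w, g ∈ startsWith w := by
    rcases hL : g.toWord with _ | ⟨w, L⟩
    · exact absurd (toWord_eq_nil_iff.1 hL) hg
    · exact ⟨w, by simp [startsWith, hL]⟩
  have hi : i = 1 := by
    rcases i with ⟨_ | _ | n, hn⟩
    · exfalso; apply h; cases c
      · exact Or.inr hic
      · exact Or.inl hic
    · rfl
    · omega
  subst hi
  have h1 := startsWith_mul_right (x := (0, true)) hic (by decide : (1 : Fin 2) ≠ 0)
  have h2 : ¬ g * FreeGroup.mk [((0 : Fin 2), true)] ∈ startsWith (0, true) :=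
    (startsWith.disjoint_iff_ne.2 (by simp)).notMem_of_mem_left h1
  have h3 := startsWith_mk_mul (w := ((0 : Fin 2), false)) _ (by simpa using h2)
  have e : (cj (FreeGroup.of (0 : Fin 2))).symm g
      = FreeGroup.mk [((0 : Fin 2), false)] * (g * FreeGroup.mk [((0 : Fin 2), true)]) := by
    rw [Equiv.symm_apply_eq, cj_apply]
    have e0 : FreeGroup.mk [((0 : Fin 2), false)] = (FreeGroup.of (0 : Fin 2))⁻¹ := by
      simp [FreeGroup.of, inv_mk, invRev]
    rw [e0, ← FreeGroup.of]
    group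
  rw [e]; exact h3

theorem moved {g : G} (hg : g ∈ S) (c : Bool) :
    cj (FreeGroup.mk [((1 : Fin 2), c)]) g ∈ startsWith (1, c) := by
  rw [cj_apply, mk_not, mul_assoc]
  obtain ⟨d, hd⟩ : ∃ d, g ∈ startsWith ((0 : Fin 2), d) := by
    rcases hg with h | h
    · exact ⟨_, h⟩
    · exact ⟨_, h⟩
  have h1 := startsWith_mul_right (x := ((1 : Fin 2), !c)) hd (by decide : (0 : Fin 2) ≠ 1)
  exact startsWith_mk_mul _ ((startsWith.disjoint_iff_ne.2 (by simp)).notMem_of_mem_left h1)

/-- The real inequality behind the gap. -/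
theorem num {A B1 B2 B3 R e : ℝ} (h1 : B1 ≤ 5 / 4 * A + 5 * e) (h2 : A ≤ 5 / 4 * B2 + 5 * e)
    (h3 : A ≤ 5 / 4 * B3 + 5 * e) (hR : R ≤ A + B1) (hd : A + B2 + B3 ≤ R) (he : 0 ≤ e) :
    R ≤ 100 * e := by
  linarith

theorem pt (u v : ℂ) : ‖u‖ ^ 2 ≤ 5 / 4 * ‖v‖ ^ 2 + 5 * ‖u - v‖ ^ 2 := by
  have := norm_le_norm_add_norm_sub' u v
  nlinarith [norm_nonneg u, norm_nonneg v, norm_nonneg (u - v),
    sq_nonneg (‖v‖ - 4 * ‖u - v‖)]

/-- Almost conjugation invariant square summable functions live at the unit. -/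
theorem gap (f : G → ℂ) (hf : Summable fun g => ‖f g‖ ^ 2) (e : ℝ)
    (hd : ∀ i : Fin 2, Summable (fun g => ‖f (cj (FreeGroup.of i) g) - f g‖ ^ 2) ∧
      ∑' g, ‖f (cj (FreeGroup.of i) g) - f g‖ ^ 2 ≤ e) :
    ∑' g, ({1}ᶜ : Set G).indicator (fun g => ‖f g‖ ^ 2) g ≤ 100 * e := by
  classical
  let P : G → ℝ := fun g => ‖f g‖ ^ 2
  have hP : ∀ g, 0 ≤ P g := fun g => sq_nonneg _
  let m : (G ≃ G) → ℝ := fun c => ∑' g, S.indicator (fun g => P (c g)) g
  have hs : ∀ c : G ≃ G, Summable (S.indicator (fun g => P (c g))) := fun c =>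
    ((Equiv.summable_iff c).2 hf).indicator S
  have cmpr : ∀ (p q : G ≃ G) (b : ℝ),
      Summable (fun g => ‖f (p g) - f (q g)‖ ^ 2) → ∑' g, ‖f (p g) - f (q g)‖ ^ 2 ≤ b →
      m p ≤ 5 / 4 * m q + 5 * b := by
    intro p q b hsum hb
    calc m p ≤ ∑' g, (5 / 4 * S.indicator (fun g => P (q g)) g
          + 5 * ‖f (p g) - f (q g)‖ ^ 2) := by
          refine (hs p).tsum_le_tsum (fun g => ?_) (((hs q).mul_left _).add (hsum.mul_left _))
          by_cases hg : g ∈ S
          · simp only [Set.indicator_of_mem hg]; exact pt _ _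
          · simp only [Set.indicator_of_notMem hg]; positivity
      _ = 5 / 4 * m q + 5 * ∑' g, ‖f (p g) - f (q g)‖ ^ 2 := by
          rw [((hs q).mul_left _).tsum_add (hsum.mul_left _), tsum_mul_left, tsum_mul_left]
      _ ≤ _ := by linarith
  have hsw : ∀ {p q : G ≃ G}, (fun g => ‖f (p g) - f (q g)‖ ^ 2)
      = fun g => ‖f (q g) - f (p g)‖ ^ 2 := fun {p q} => by funext g; rw [norm_sub_rev]
  set a : G := FreeGroup.of 0
  set b : G := FreeGroup.of 1
  have he : 0 ≤ e := (tsum_nonneg fun g => sq_nonneg _).trans (hd 0).2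
  -- the three comparisons
  have c1 : m (cj a) ≤ 5 / 4 * m (Equiv.refl G) + 5 * e :=
    cmpr _ _ _ (hd 0).1 (hd 0).2
  have c2 : m (Equiv.refl G) ≤ 5 / 4 * m (cj b) + 5 * e := by
    refine cmpr _ _ _ ?_ ?_ <;> rw [hsw]
    · exact (hd 1).1
    · exact (hd 1).2
  have c3 : m (Equiv.refl G) ≤ 5 / 4 * m (cj b).symm + 5 * e := by
    have e1 : (fun g => ‖f (Equiv.refl G g) - f ((cj b).symm g)‖ ^ 2)
        = (fun g => ‖f (cj b g) - f g‖ ^ 2) ∘ (cj b).symm := by
      funext g; simp only [Function.comp_apply, Equiv.apply_symm_apply, Equiv.refl_apply]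
    refine cmpr _ _ _ ?_ ?_ <;> rw [e1]
    · exact (Equiv.summable_iff _).2 (hd 1).1
    · exact ((cj b).symm.tsum_eq _).trans_le (hd 1).2
  -- transport a mass to the image set
  have tr : ∀ c : G ≃ G, m c = ∑' g, (c '' S).indicator P g := fun c => by
    rw [← c.tsum_eq ((c '' S).indicator P)]
    exact tsum_congr fun g => by
      by_cases hg : g ∈ S
      · rw [Set.indicator_of_mem hg, Set.indicator_of_mem (show c g ∈ c '' S from ⟨g, hg, rfl⟩)]
      · rw [Set.indicator_of_notMem hg, Set.indicator_of_notMem]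
        rintro ⟨k, hk, hkg⟩
        exact hg (c.injective hkg ▸ hk)
  have hi : ∀ T : Set G, Summable (T.indicator P) := fun T => hf.indicator T
  have hR : ∑' g, ({1}ᶜ : Set G).indicator P g ≤ m (Equiv.refl G) + m (cj a) := by
    rw [tr, tr, ← (hi _).tsum_add (hi _)]
    refine (hi _).tsum_le_tsum (fun g => ?_) ((hi _).add (hi _))
    have n1 := Set.indicator_nonneg (s := Equiv.refl G '' S) (fun x _ => hP x) g
    have n2 := Set.indicator_nonneg (s := cj a '' S) (fun x _ => hP x) g
    by_cases hg : g = 1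
    · rw [Set.indicator_of_notMem (by simp [hg])]; linarith
    · rw [Set.indicator_of_mem (by simp [hg])]
      rcases cover g hg with h | h
      · rw [Set.indicator_of_mem (show g ∈ Equiv.refl G '' S from ⟨g, h, rfl⟩)]; linarith
      · rw [Set.indicator_of_mem
          (show g ∈ cj a '' S from ⟨_, h, (cj a).apply_symm_apply g⟩)]; linarith
  have hdis : m (Equiv.refl G) + m (cj b) + m (cj b).symm
      ≤ ∑' g, ({1}ᶜ : Set G).indicator P g := by
    rw [tr, tr, tr, ← (hi _).tsum_add (hi _), ← ((hi _).add (hi _)).tsum_add (hi _)]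
    refine (((hi _).add (hi _)).add (hi _)).tsum_le_tsum (fun g => ?_) (hi _)
    have d0 : g ∈ Equiv.refl G '' S → ∃ d, g ∈ startsWith ((0 : Fin 2), d) := by
      rintro ⟨k, hk, rfl⟩
      rcases hk with h | h
      · exact ⟨_, h⟩
      · exact ⟨_, h⟩
    have d1 : g ∈ cj b '' S → g ∈ startsWith ((1 : Fin 2), true) := by
      rintro ⟨k, hk, rfl⟩; exact moved hk true
    have d2 : g ∈ (cj b).symm '' S → g ∈ startsWith ((1 : Fin 2), false) := by
      rintro ⟨k, hk, rfl⟩
      have e1 : (cj b).symm k = cj (FreeGroup.mk [((1 : Fin 2), false)]) k := by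
        rw [Equiv.symm_apply_eq, cj_apply, cj_apply]
        have e0 : FreeGroup.mk [((1 : Fin 2), false)] = b⁻¹ := by
          simp [b, FreeGroup.of, inv_mk, invRev]
        rw [e0]; group
      rw [e1]; exact moved hk false
    have ne : ∀ {w : Fin 2 × Bool}, g ∈ startsWith w →
        ({1}ᶜ : Set G).indicator P g = P g :=
      fun h => Set.indicator_of_mem (by simpa using startsWith.ne_one g h) P
    have dj : ∀ {w w' : Fin 2 × Bool}, g ∈ startsWith w → g ∈ startsWith w' → w = w' := by
      intro w w' h h'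
      simp only [startsWith, Set.mem_ofPred_eq] at h h'
      rw [h] at h'; exact Option.some_injective _ h'
    by_cases h0 : g ∈ Equiv.refl G '' S
    · obtain ⟨d, hd0⟩ := d0 h0
      rw [Set.indicator_of_mem h0,
        Set.indicator_of_notMem fun h => absurd (dj hd0 (d1 h)) (by simp),
        Set.indicator_of_notMem fun h => absurd (dj hd0 (d2 h)) (by simp), ne hd0]
      simp
    · rw [Set.indicator_of_notMem h0]
      by_cases h1 : g ∈ cj b '' S
      · rw [Set.indicator_of_mem h1,
          Set.indicator_of_notMem fun h => absurd (dj (d1 h1) (d2 h)) (by simp), ne (d1 h1)]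
        simp
      · rw [Set.indicator_of_notMem h1]
        by_cases h2 : g ∈ (cj b).symm '' S
        · rw [Set.indicator_of_mem h2, ne (d2 h2)]; simp
        · rw [Set.indicator_of_notMem h2]
          simpa using Set.indicator_nonneg (fun x _ => hP x) g
  exact num c1 c2 c3 hR hdis he

/-- A unit basis vector. -/
noncomputable abbrev dlt (g : G) : lp (fun _ : G => ℂ) 2 := lp.single 2 g (1 : ℂ)

theorem sq_summable (v : lp (fun _ : G => ℂ) 2) :
    HasSum (fun g => ‖v g‖ ^ 2) (‖v‖ ^ 2) := by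
  have := lp.hasSum_norm (p := 2) (by norm_num) v
  simpa using this

theorem op_shift (T : lp (fun _ : G => ℂ) 2 →L[ℂ] lp (fun _ : G => ℂ) 2) (s : G)
    (hT : ∀ h, T (dlt h) = dlt (s * h)) (f : lp (fun _ : G => ℂ) 2) (g : G) :
    T f g = f (s⁻¹ * g) := by
  have h1 := (lp.hasSum_single (p := 2) (by norm_num) f).mapL T
  have h2 := h1.mapL (innerSL ℂ (dlt g))
  simp only [innerSL_apply_apply, lp.inner_single_left, RCLike.inner_apply] at h2
  have e : ∀ h, T (lp.single 2 h (f h)) g = if h = s⁻¹ * g then f h else 0 := by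
    intro h
    have : lp.single 2 h (f h) = f h • dlt h := by
      rw [dlt, ← lp.single_smul, smul_eq_mul, mul_one]
    rw [this, map_smul, hT, lp.coeFn_smul, Pi.smul_apply, smul_eq_mul, lp.single_apply]
    by_cases hh : h = s⁻¹ * g
    · subst hh; simp
    · have : g ≠ s * h := fun c => hh (by rw [c]; group)
      simp [hh, this]
  simp only [e] at h2
  have h3 := h2.unique (hasSum_ite_eq (s⁻¹ * g) (f (s⁻¹ * g)) |>.congr_fun fun h => by
    by_cases hh : h = s⁻¹ * g
    · subst hh; simp
    · simp [hh])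
  simpa using h3

end Vale.Agent.P101.FreeGap
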